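import Vale.Agent.P022.H23.Narrow

/-!
P022-R [RNRM]: a character which is near `1` on the totally positive elements near `1` has
absolute value one on the ideals prime to `2 m`
-/

set_option autoImplicit false
set_option linter.unusedSectionVars false

open scoped NumberField nonZeroDivisors

namespace Vale.Agent.P022.H23

section

variable {K : Type} [Field K] [NumberField K]

theorem exists_pow_modEq {n : ℕ} (hn : n ≠ 0) {α : 𝓞 K} (h : IsCoprime α (n : 𝓞 K)) :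
    ∃ k : ℕ, 0 < k ∧ (n : 𝓞 K) ∣ α ^ k - 1 := by
  classical
  obtain ⟨I, hI⟩ : ∃ I : Ideal (𝓞 K), I = Ideal.span {(n : 𝓞 K)} := ⟨_, rfl⟩
  have hI0 : I ≠ ⊥ := by
    rw [hI, Ne, Ideal.span_singleton_eq_bot]; exact_mod_cast hn
  have : Finite (𝓞 K ⧸ I) := Ideal.finiteQuotientOfFreeOfNeBot I hI0
  obtain ⟨u, v, huv⟩ := h
  have h1 : (Ideal.Quotient.mk I u) * (Ideal.Quotient.mk I α) = 1 := by
    rw [← map_mul, ← map_one (Ideal.Quotient.mk I), Ideal.Quotient.eq, hI,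
      Ideal.mem_span_singleton]
    exact ⟨-v, by linear_combination huv⟩
  have h2 : IsUnit (Ideal.Quotient.mk I α) := IsUnit.of_mul_eq_one_right _ h1
  obtain ⟨U, hU⟩ := h2
  have h3 : 0 < orderOf U := (isOfFinOrder_of_finite U).orderOf_pos
  refine ⟨orderOf U, h3, ?_⟩
  have h4 : (Ideal.Quotient.mk I α) ^ orderOf U = 1 := by
    rw [← hU, ← Units.val_pow_eq_pow_val, pow_orderOf_eq_one, Units.val_one]
  rw [← map_pow, ← map_one (Ideal.Quotient.mk I), Ideal.Quotient.eq] at h4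
  exact Ideal.mem_span_singleton.1 (hI ▸ h4)

/-- a power of a nonzero ideal is principal -/
theorem exists_pow_principal (𝔞 : Ideal (𝓞 K)) (h𝔞 : 𝔞 ≠ ⊥) :
    ∃ (k : ℕ) (α : 𝓞 K), 0 < k ∧ α ≠ 0 ∧ 𝔞 ^ k = Ideal.span {α} := by
  have ha1 : 𝔞 ∈ (Ideal (𝓞 K))⁰ := mem_nonZeroDivisors_of_ne_zero h𝔞
  have h1 : 0 < Nat.card (ClassGroup (𝓞 K)) := Nat.card_pos
  refine ⟨Nat.card (ClassGroup (𝓞 K)), ?_⟩
  have h2 : ClassGroup.mk0 (⟨𝔞, ha1⟩ ^ Nat.card (ClassGroup (𝓞 K)) : (Ideal (𝓞 K))⁰) = 1 := by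
    rw [map_pow, pow_card_eq_one']
  have h3 : (⟨𝔞, ha1⟩ ^ Nat.card (ClassGroup (𝓞 K)) : (Ideal (𝓞 K))⁰) =
      ⟨𝔞 ^ Nat.card (ClassGroup (𝓞 K)), pow_mem ha1 _⟩ := rfl
  rw [h3, ClassGroup.mk0_eq_one_iff] at h2
  obtain ⟨⟨α, hα⟩⟩ := h2
  refine ⟨α, h1, ?_, hα⟩
  rintro rfl
  have h5 : 𝔞 ^ Nat.card (ClassGroup (𝓞 K)) = ⊥ := by
    rw [hα]
    simp
  exact pow_ne_zero _ h𝔞 h5

variable {E : Type} [NontriviallyNormedField E] [IsUltrametricDist E]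

theorem norm_eq_one_of_near {x : E} (h : ‖x - 1‖ < 1) : ‖x‖ = 1 := by
  have h1 : ‖(x - 1) + 1‖ = max ‖x - 1‖ ‖(1 : E)‖ :=
    IsUltrametricDist.norm_add_eq_max_of_norm_ne_norm (by rw [norm_one]; exact h.ne)
  rw [sub_add_cancel, norm_one, max_eq_right h.le] at h1
  exact h1

theorem nrm_of {n : ℕ} (hn : n ≠ 0) (ψ : Ideal (𝓞 K) →* E)
    (hψ : ∀ α : 𝓞 K, TP α → (n : 𝓞 K) ∣ α - 1 → ‖ψ (Ideal.span {α}) - 1‖ < 1)
    {𝔞 : Ideal (𝓞 K)} (h𝔞 : 𝔞 ≠ ⊥) (hc : IsCoprime 𝔞 (Ideal.span {(n : 𝓞 K)})) :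
    ‖ψ 𝔞‖ = 1 := by
  obtain ⟨k, α, hk, hα, h1⟩ := exists_pow_principal 𝔞 h𝔞
  have h2 : IsCoprime α (n : 𝓞 K) := by
    rw [← Ideal.isCoprime_span_singleton_iff, ← h1]
    exact hc.pow_left
  obtain ⟨j, hj, h3⟩ := exists_pow_modEq hn h2
  have h4 : TP ((α ^ j) ^ 2) := TP.sq (pow_ne_zero j hα)
  have h5 : (n : 𝓞 K) ∣ (α ^ j) ^ 2 - 1 := by
    have : (α ^ j) ^ 2 - 1 = (α ^ j - 1) * (α ^ j + 1) := by ring
    rw [this]
    exact h3.mul_right _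
  have h6 := norm_eq_one_of_near (hψ _ h4 h5)
  rw [← pow_mul, ← Ideal.span_singleton_pow, ← h1, ← pow_mul, map_pow, norm_pow] at h6
  exact (pow_eq_one_iff_of_nonneg (norm_nonneg _) (by positivity)).1 h6

theorem not_unit_two_mul (m : ℕ) : ¬ IsUnit (((2 * m : ℕ) : 𝓞 K)) := by
  intro h
  have h1 : IsUnit ((2 : ℕ) : 𝓞 K) := by
    push_cast at h ⊢
    exact isUnit_of_mul_isUnit_left h
  rw [← Ideal.span_singleton_eq_top] at h1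
  have h2 := congrArg Ideal.absNorm h1
  rw [Ideal.absNorm_span_singleton, Ideal.absNorm_top] at h2
  have h3 : Algebra.norm ℤ ((2 : ℕ) : 𝓞 K) = 2 ^ Module.finrank ℤ (𝓞 K) := by
    have := Algebra.norm_algebraMap (S := 𝓞 K) (2 : ℤ)
    simpa using this
  rw [h3, Int.natAbs_pow] at h2
  have h4 : Module.finrank ℤ (𝓞 K) ≠ 0 := by
    rw [NumberField.RingOfIntegers.rank]
    exact Module.finrank_pos.ne'
  have h5 : (2 : ℕ) ^ Module.finrank ℤ (𝓞 K) = 1 := by simpa using h2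
  have h6 := Nat.one_lt_two_pow h4
  omega

/-- [RNRM] -/
theorem rnrm {m : ℕ} (hm : m ≠ 0) (ψ : Ideal (𝓞 K) →* E)
    (hψ : ∀ ε : ℝ, 0 < ε → ∃ r : ℕ, ∀ α : 𝓞 K, TP α → ((2 ^ r * m : ℕ) : 𝓞 K) ∣ α - 1 →
      ‖ψ (Ideal.span {α}) - 1‖ < ε)
    {𝔞 : Ideal (𝓞 K)} (hc : IsCoprime 𝔞 (Ideal.span {((2 * m : ℕ) : 𝓞 K)})) :
    ‖ψ 𝔞‖ = 1 := by
  obtain ⟨r, hr⟩ := hψ 1 one_pos
  have h0 : 𝔞 ≠ ⊥ := by
    rintro rfl
    rw [Ideal.isCoprime_iff_sup_eq, bot_sup_eq, Ideal.span_singleton_eq_top] at hc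
    exact not_unit_two_mul m hc
  refine nrm_of (n := 2 ^ r * m) (by positivity) ψ hr h0 ?_
  have h1 : IsCoprime 𝔞 (Ideal.span {((2 : ℕ) : 𝓞 K)}) ∧ IsCoprime 𝔞 (Ideal.span {(m : 𝓞 K)}) := by
    have : (Ideal.span {((2 * m : ℕ) : 𝓞 K)} : Ideal (𝓞 K)) =
        Ideal.span {((2 : ℕ) : 𝓞 K)} * Ideal.span {(m : 𝓞 K)} := by
      rw [Ideal.span_singleton_mul_span_singleton]
      push_cast
      rfl
    rw [this] at hc
    exact ⟨hc.of_mul_right_left, hc.of_mul_right_right⟩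
  have h2 : (Ideal.span {((2 ^ r * m : ℕ) : 𝓞 K)} : Ideal (𝓞 K)) =
      Ideal.span {((2 : ℕ) : 𝓞 K)} ^ r * Ideal.span {(m : 𝓞 K)} := by
    rw [Ideal.span_singleton_pow, Ideal.span_singleton_mul_span_singleton]
    push_cast
    rfl
  rw [h2]
  exact (h1.1.pow_right).mul_right h1.2

end

end Vale.Agent.P022.H23
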