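import Mathlib

/-!
P022-R: totally positive elements, narrow classes, absolute value of characters
-/

set_option autoImplicit false
set_option linter.unusedSectionVars false

open scoped NumberField nonZeroDivisors

namespace Vale.Agent.P022.H23

section

variable {K : Type} [Field K] [NumberField K]

theorem cmul (α β : 𝓞 K) : ((α * β : 𝓞 K) : K) = (α : K) * (β : K) :=
  map_mul (algebraMap (𝓞 K) K) α β

theorem cpow (α : 𝓞 K) (n : ℕ) : ((α ^ n : 𝓞 K) : K) = (α : K) ^ n :=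
  map_pow (algebraMap (𝓞 K) K) α n

theorem cadd (α β : 𝓞 K) : ((α + β : 𝓞 K) : K) = (α : K) + (β : K) :=
  map_add (algebraMap (𝓞 K) K) α β

theorem cnat (n : ℕ) : ((n : 𝓞 K) : K) = (n : K) := map_natCast (algebraMap (𝓞 K) K) n

/-- totally positive elements -/
def TP (α : 𝓞 K) : Prop := α ≠ 0 ∧ ∀ σ : K →+* ℝ, 0 < σ (α : K)

theorem TP.ne_zero {α : 𝓞 K} (h : TP α) : α ≠ 0 := h.1

theorem TP.mul {α β : 𝓞 K} (h : TP α) (h' : TP β) : TP (α * β) := by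
  refine ⟨mul_ne_zero h.1 h'.1, fun σ => ?_⟩
  rw [cmul, map_mul]
  exact mul_pos (h.2 σ) (h'.2 σ)

theorem TP.one : TP (1 : 𝓞 K) := ⟨one_ne_zero, fun σ => by simp⟩

theorem TP.natCast {n : ℕ} (h : n ≠ 0) : TP (n : 𝓞 K) :=
  ⟨by exact_mod_cast h, fun σ => by
    have : (0 : ℝ) < n := by exact_mod_cast Nat.pos_of_ne_zero h
    rw [cnat, map_natCast]
    exact this⟩

theorem TP.sq {α : 𝓞 K} (h : α ≠ 0) : TP (α ^ 2) := by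
  refine ⟨pow_ne_zero 2 h, fun σ => ?_⟩
  rw [cpow, map_pow]
  have : σ (α : K) ≠ 0 := by
    rw [Ne, map_eq_zero]
    exact_mod_cast h
  positivity

theorem TP.pow {α : 𝓞 K} (h : TP α) (n : ℕ) : TP (α ^ n) := by
  induction n with
  | zero => rw [pow_zero]; exact TP.one
  | succ n ih => rw [pow_succ]; exact ih.mul h

instance : Finite (K →+* ℝ) := by
  have h : Function.Injective (fun σ : K →+* ℝ => (algebraMap ℝ ℂ).comp σ) := by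
    intro σ τ h
    ext x
    have := RingHom.congr_fun h x
    simpa using this
  exact Finite.of_injective _ h

/-- adding a large multiple of a totally positive element -/
theorem exists_TP_add (α β : 𝓞 K) (hβ : TP β) : ∃ t : ℕ, TP (α + (t : 𝓞 K) * β) := by
  have h1 : ∀ σ : K →+* ℝ, ∃ t : ℕ, ∀ s : ℕ, t ≤ s → 0 < σ ((α + (s : 𝓞 K) * β : 𝓞 K) : K) := by
    intro σ
    obtain ⟨t, ht⟩ := exists_nat_gt (-(σ (α : K)) / σ (β : K))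
    refine ⟨t, fun s hs => ?_⟩
    rw [div_lt_iff₀ (hβ.2 σ)] at ht
    have h2 : (t : ℝ) * σ (β : K) ≤ (s : ℝ) * σ (β : K) := by
      have := (hβ.2 σ).le
      gcongr
    have h3 : σ ((α + (s : 𝓞 K) * β : 𝓞 K) : K) = σ (α : K) + s * σ (β : K) := by
      rw [cadd, cmul, cnat, map_add, map_mul, map_natCast]
    rw [h3]
    linarith
  choose t ht using h1
  have := Fintype.ofFinite (K →+* ℝ)
  obtain ⟨T, hT⟩ : ∃ T : ℕ, ∀ σ, t σ ≤ T := ⟨∑ σ, t σ, fun σ =>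
    Finset.single_le_sum (f := t) (fun _ _ => Nat.zero_le _) (Finset.mem_univ σ)⟩
  by_cases h0 : α + (T : 𝓞 K) * β = 0
  · refine ⟨T + 1, ?_, fun σ => ht σ _ ((hT σ).trans (Nat.le_succ _))⟩
    intro h1
    have h2 : β = 0 := by
      push_cast at h1
      linear_combination h1 - h0
    exact hβ.1 h2
  · exact ⟨T, h0, fun σ => ht σ _ (hT σ)⟩

/-- [NCLS] an ideal prime to `n` in the narrow class inverse to `𝔞` -/
theorem ncls (n : ℕ) (hn : n ≠ 0) (𝔞 : Ideal (𝓞 K)) (h𝔞 : 𝔞 ≠ ⊥) :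
    ∃ (𝔟 : Ideal (𝓞 K)) (α : 𝓞 K), TP α ∧ IsCoprime 𝔟 (Ideal.span {(n : 𝓞 K)}) ∧
      𝔟 * 𝔞 = Ideal.span {α} := by
  have hnK : (n : 𝓞 K) ≠ 0 := by exact_mod_cast hn
  have hn0 : Ideal.span {(n : 𝓞 K)} ≠ ⊥ := by
    rw [Ne, Ideal.span_singleton_eq_bot]
    exact hnK
  have hle : 𝔞 * Ideal.span {(n : 𝓞 K)} ≤ 𝔞 := Ideal.mul_le_left
  obtain ⟨α, hα⟩ := IsDedekindDomain.exists_sup_span_eq hle (mul_ne_zero h𝔞 hn0)
  -- a totally positive element of `𝔞 (n)`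
  have hN : Ideal.absNorm 𝔞 ≠ 0 := by
    rw [Ne, Ideal.absNorm_eq_zero_iff]
    exact h𝔞
  have hβ : TP ((Ideal.absNorm 𝔞 * n : ℕ) : 𝓞 K) := TP.natCast (mul_ne_zero hN hn)
  obtain ⟨t, ht⟩ := exists_TP_add α _ hβ
  set γ : 𝓞 K := α + t * ((Ideal.absNorm 𝔞 * n : ℕ) : 𝓞 K) with hγ
  have hmem : (t : 𝓞 K) * ((Ideal.absNorm 𝔞 * n : ℕ) : 𝓞 K) ∈ 𝔞 * Ideal.span {(n : 𝓞 K)} := by
    refine Ideal.mul_mem_left _ _ ?_
    push_cast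
    exact Ideal.mul_mem_mul (Ideal.absNorm_mem 𝔞) (Ideal.mem_span_singleton_self _)
  have hγ2 : 𝔞 * Ideal.span {(n : 𝓞 K)} ⊔ Ideal.span {γ} = 𝔞 := by
    conv_rhs => rw [← hα]
    apply le_antisymm
    · refine sup_le le_sup_left ?_
      rw [Ideal.span_singleton_le_iff_mem, hγ]
      exact add_mem (Ideal.mem_sup_right (Ideal.mem_span_singleton_self α))
        (Ideal.mem_sup_left hmem)
    · refine sup_le le_sup_left ?_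
      rw [Ideal.span_singleton_le_iff_mem]
      have h1 : α = γ - t * ((Ideal.absNorm 𝔞 * n : ℕ) : 𝓞 K) := by rw [hγ]; ring
      rw [h1]
      exact sub_mem (Ideal.mem_sup_right (Ideal.mem_span_singleton_self γ))
        (Ideal.mem_sup_left hmem)
  have hdvd : 𝔞 ∣ Ideal.span {γ} := by
    rw [Ideal.dvd_span_singleton]
    rw [← hγ2]
    exact Ideal.mem_sup_right (Ideal.mem_span_singleton_self γ)
  obtain ⟨𝔟, h𝔟⟩ := hdvd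
  refine ⟨𝔟, γ, ht, ?_, by rw [h𝔟, mul_comm]⟩
  rw [Ideal.isCoprime_iff_sup_eq]
  rw [h𝔟, ← Ideal.mul_sup] at hγ2
  have h2 : 𝔞 * (Ideal.span {(n : 𝓞 K)} ⊔ 𝔟) = 𝔞 * ⊤ := by
    rw [hγ2, Ideal.mul_top]
  have h3 := mul_left_cancel₀ h𝔞 h2
  rw [sup_comm]
  exact h3

/-- narrow equivalence -/
def NEq (𝔞 𝔟 : Ideal (𝓞 K)) : Prop := ∃ α β : 𝓞 K, TP α ∧ TP β ∧
  Ideal.span {α} * 𝔞 = Ideal.span {β} * 𝔟

theorem NEq.refl (𝔞 : Ideal (𝓞 K)) : NEq 𝔞 𝔞 := ⟨1, 1, TP.one, TP.one, rfl⟩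

theorem NEq.symm {𝔞 𝔟 : Ideal (𝓞 K)} (h : NEq 𝔞 𝔟) : NEq 𝔟 𝔞 := by
  obtain ⟨α, β, h1, h2, h3⟩ := h
  exact ⟨β, α, h2, h1, h3.symm⟩

theorem NEq.trans {𝔞 𝔟 𝔠 : Ideal (𝓞 K)} (h : NEq 𝔞 𝔟) (h' : NEq 𝔟 𝔠) : NEq 𝔞 𝔠 := by
  obtain ⟨α, β, h1, h2, h3⟩ := h
  obtain ⟨γ, δ, h4, h5, h6⟩ := h'
  refine ⟨γ * α, β * δ, h4.mul h1, h2.mul h5, ?_⟩
  rw [← Ideal.span_singleton_mul_span_singleton, ← Ideal.span_singleton_mul_span_singleton,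
    mul_assoc, h3, ← mul_assoc, mul_comm (Ideal.span {γ}), mul_assoc, h6, mul_assoc]

/-- principal with a totally positive generator -/
def NP (𝔞 : Ideal (𝓞 K)) : Prop := ∃ α : 𝓞 K, TP α ∧ 𝔞 = Ideal.span {α}

theorem span_ne_bot {α : 𝓞 K} (h : α ≠ 0) : Ideal.span {α} ≠ (⊥ : Ideal (𝓞 K)) := by
  rwa [Ne, Ideal.span_singleton_eq_bot]

theorem NP.congr {𝔟 𝔞 𝔞' : Ideal (𝓞 K)} (h : NEq 𝔞 𝔞') (h1 : NP (𝔟 * 𝔞)) :
    ∃ α β : 𝓞 K, TP α ∧ TP β ∧ Ideal.span {α} * (𝔟 * 𝔞') = Ideal.span {β} := by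
  obtain ⟨α, β, h2, h3, h4⟩ := h
  obtain ⟨γ, h5, h6⟩ := h1
  refine ⟨β, α * γ, h3, h2.mul h5, ?_⟩
  rw [← Ideal.span_singleton_mul_span_singleton, ← h6]
  calc Ideal.span {β} * (𝔟 * 𝔞') = 𝔟 * (Ideal.span {β} * 𝔞') := by ring
    _ = 𝔟 * (Ideal.span {α} * 𝔞) := by rw [h4]
    _ = _ := by ring

/-- an ideal which becomes narrowly principal after multiplication with a totally positive
element is narrowly principal -/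
theorem NP.of_mul {𝔞 : Ideal (𝓞 K)} {α β : 𝓞 K} (hα : TP α) (hβ : TP β)
    (h : Ideal.span {α} * 𝔞 = Ideal.span {β}) : NP 𝔞 := by
  have h0 : (Ideal.span {β} : Ideal (𝓞 K)) ≤ Ideal.span {α} := h ▸ Ideal.mul_le_left
  have h1 : α ∣ β := (Ideal.span_singleton_le_span_singleton (α := 𝓞 K)).1 h0
  obtain ⟨γ, rfl⟩ := h1
  have h2 : γ ≠ 0 := right_ne_zero_of_mul hβ.1
  refine ⟨γ, ⟨h2, fun σ => ?_⟩, ?_⟩
  · have h3 := hβ.2 σ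
    rw [cmul, map_mul] at h3
    exact (pos_iff_pos_of_mul_pos h3).1 (hα.2 σ)
  · rw [← Ideal.span_singleton_mul_span_singleton] at h
    exact mul_left_cancel₀ (span_ne_bot hα.1) h

theorem NP.of_NEq {𝔟 𝔞 𝔞' : Ideal (𝓞 K)} (h : NEq 𝔞 𝔞') (h1 : NP (𝔟 * 𝔞)) : NP (𝔟 * 𝔞') := by
  obtain ⟨α, β, h2, h3, h4⟩ := NP.congr h h1
  exact NP.of_mul h2 h3 h4

/-- two ideals with the same inverse are equivalent -/
theorem NEq.of_NP {𝔟 𝔞 𝔞' : Ideal (𝓞 K)} (hb : 𝔟 ≠ ⊥) (h : NP (𝔟 * 𝔞)) (h' : NP (𝔟 * 𝔞')) :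
    NEq 𝔞 𝔞' := by
  obtain ⟨α, h1, h2⟩ := h
  obtain ⟨β, h3, h4⟩ := h'
  refine ⟨β, α, h3, h1, ?_⟩
  have h5 : 𝔟 * (Ideal.span {β} * 𝔞) = 𝔟 * (Ideal.span {α} * 𝔞') := by
    calc 𝔟 * (Ideal.span {β} * 𝔞) = Ideal.span {β} * (𝔟 * 𝔞) := by ring
      _ = Ideal.span {α} * (𝔟 * 𝔞') := by rw [h2, h4, mul_comm]
      _ = _ := by ring
  exact mul_left_cancel₀ hb h5

/-- representatives of an equivalence relation with finitely many classes -/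
theorem exists_transversal {X : Type} (s : Setoid X) (hf : Finite (Quotient s)) :
    ∃ (h : ℕ) (x : Fin h → X), ∀ y : X, ∃ i, s.r (x i) y ∧ ∀ j, s.r (x j) y → j = i := by
  obtain ⟨h, ⟨e⟩⟩ := Finite.exists_equiv_fin (Quotient s)
  refine ⟨h, fun i => (e.symm i).out, fun y => ⟨e (Quotient.mk s y), ?_, fun j hj => ?_⟩⟩
  · have h1 : s.r (Quotient.mk s y).out y := Quotient.exact (Quotient.out_eq _)
    have h2 : e.symm (e (Quotient.mk s y)) = Quotient.mk s y := e.symm_apply_apply _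
    simp only [h2]
    exact h1
  · have h1 : Quotient.mk s (e.symm j).out = Quotient.mk s y := Quotient.sound hj
    rw [Quotient.out_eq] at h1
    rw [← h1, Equiv.apply_symm_apply]

/-- the narrow class setoid on nonzero ideals -/
def nset (K : Type) [Field K] [NumberField K] : Setoid {𝔞 : Ideal (𝓞 K) // 𝔞 ≠ ⊥} where
  r 𝔞 𝔟 := NEq 𝔞.1 𝔟.1
  iseqv := ⟨fun _ => NEq.refl _, fun h => h.symm, fun h h' => h.trans h'⟩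

/-- there are finitely many narrow classes -/
theorem finite_nset (K : Type) [Field K] [NumberField K] : Finite (Quotient (nset K)) := by
  classical
  -- ordinary class inverse with generator
  have h1 : ∀ c : ClassGroup (𝓞 K), ∃ 𝔟 : Ideal (𝓞 K), 𝔟 ≠ ⊥ ∧ ∃ h : 𝔟 ∈ (Ideal (𝓞 K))⁰,
      ClassGroup.mk0 ⟨𝔟, h⟩ * c = 1 := by
    intro c
    obtain ⟨⟨𝔞, h𝔞⟩, h2⟩ := ClassGroup.mk0_surjective c⁻¹
    refine ⟨𝔞, nonZeroDivisors.ne_zero h𝔞, h𝔞, ?_⟩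
    rw [h2, inv_mul_cancel]
  choose 𝔟 hb0 hb1 hb2 using h1
  have h2 : ∀ 𝔞 : {𝔞 : Ideal (𝓞 K) // 𝔞 ≠ ⊥}, ∃ (c : ClassGroup (𝓞 K)) (α : 𝓞 K), α ≠ 0 ∧
      𝔟 c * 𝔞.1 = Ideal.span {α} := by
    intro 𝔞
    have ha1 : 𝔞.1 ∈ (Ideal (𝓞 K))⁰ := mem_nonZeroDivisors_of_ne_zero 𝔞.2
    refine ⟨ClassGroup.mk0 ⟨𝔞.1, ha1⟩, ?_⟩
    set c := ClassGroup.mk0 ⟨𝔞.1, ha1⟩ with hc
    have h3 : ClassGroup.mk0 ⟨𝔟 c * 𝔞.1, mul_mem (hb1 c) ha1⟩ = 1 := by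
      have h4 : (⟨𝔟 c * 𝔞.1, mul_mem (hb1 c) ha1⟩ : (Ideal (𝓞 K))⁰) =
        ⟨𝔟 c, hb1 c⟩ * ⟨𝔞.1, ha1⟩ := rfl
      rw [h4, map_mul]
      exact hb2 c
    rw [ClassGroup.mk0_eq_one_iff] at h3
    obtain ⟨⟨α, hα⟩⟩ := h3
    refine ⟨α, ?_, hα⟩
    rintro rfl
    have h5 : 𝔟 c * 𝔞.1 = ⊥ := by
      rw [hα]
      simp
    rcases Ideal.mul_eq_bot.1 h5 with h6 | h6
    · exact hb0 c h6
    · exact 𝔞.2 h6
  choose c α hα hc using h2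
  have := Fintype.ofFinite (K →+* ℝ)
  let F : {𝔞 : Ideal (𝓞 K) // 𝔞 ≠ ⊥} → ClassGroup (𝓞 K) × ((K →+* ℝ) → Bool) :=
    fun 𝔞 => (c 𝔞, fun σ => decide (0 < σ (α 𝔞 : K)))
  have hF : ∀ 𝔞 𝔞', F 𝔞 = F 𝔞' → NEq 𝔞.1 𝔞'.1 := by
    intro 𝔞 𝔞' h
    have h3 : c 𝔞 = c 𝔞' := congrArg Prod.fst h
    have h4 : ∀ σ : K →+* ℝ, (0 < σ (α 𝔞 : K)) ↔ (0 < σ (α 𝔞' : K)) := by
      intro σ
      have := congrFun (congrArg Prod.snd h) σ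
      simpa [F] using this
    have h5 : TP (α 𝔞 * α 𝔞') := by
      refine ⟨mul_ne_zero (hα _) (hα _), fun σ => ?_⟩
      rw [cmul, map_mul]
      have e1 : σ (α 𝔞 : K) ≠ 0 := by
        rw [Ne, map_eq_zero]
        exact_mod_cast hα 𝔞
      have e2 : σ (α 𝔞' : K) ≠ 0 := by
        rw [Ne, map_eq_zero]
        exact_mod_cast hα 𝔞'
      by_cases e3 : 0 < σ (α 𝔞 : K)
      · exact mul_pos e3 ((h4 σ).1 e3)
      · have e4 : ¬ 0 < σ (α 𝔞' : K) := fun e => e3 ((h4 σ).2 e)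
        exact mul_pos_of_neg_of_neg (lt_of_le_of_ne (not_lt.1 e3) e1)
          (lt_of_le_of_ne (not_lt.1 e4) e2)
    refine ⟨α 𝔞 * α 𝔞', α 𝔞 ^ 2, h5, TP.sq (hα _), ?_⟩
    have h6 : 𝔟 (c 𝔞) * (Ideal.span {α 𝔞 * α 𝔞'} * 𝔞.1) =
        𝔟 (c 𝔞) * (Ideal.span {α 𝔞 ^ 2} * 𝔞'.1) := by
      calc 𝔟 (c 𝔞) * (Ideal.span {α 𝔞 * α 𝔞'} * 𝔞.1)
          = Ideal.span {α 𝔞 * α 𝔞'} * (𝔟 (c 𝔞) * 𝔞.1) := by ring
        _ = Ideal.span {α 𝔞 * α 𝔞'} * Ideal.span {α 𝔞} := by rw [hc]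
        _ = Ideal.span {α 𝔞 ^ 2} * Ideal.span {α 𝔞'} := by
          rw [Ideal.span_singleton_mul_span_singleton, Ideal.span_singleton_mul_span_singleton]
          congr 2
          ring
        _ = Ideal.span {α 𝔞 ^ 2} * (𝔟 (c 𝔞) * 𝔞'.1) := by rw [h3, hc]
        _ = _ := by ring
    exact mul_left_cancel₀ (hb0 _) h6
  refine Finite.of_injective (β := ClassGroup (𝓞 K) × ((K →+* ℝ) → Bool))
    (fun q => F q.out) ?_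
  intro q q' h
  have h3 := hF _ _ h
  rw [← Quotient.out_eq q, ← Quotient.out_eq q']
  exact Quotient.sound h3

/-- [NREPS] representatives of the narrow classes, prime to `n` -/
theorem nreps (K : Type) [Field K] [NumberField K] (n : ℕ) (hn : n ≠ 0) :
    ∃ (h : ℕ) (𝔟 : Fin h → Ideal (𝓞 K)),
      (∀ c, IsCoprime (𝔟 c) (Ideal.span {(n : 𝓞 K)})) ∧ (∀ c, 𝔟 c ≠ ⊥) ∧
      ∀ 𝔞 : Ideal (𝓞 K), 𝔞 ≠ ⊥ → ∃ c₀, NP (𝔟 c₀ * 𝔞) ∧ ∀ c, NP (𝔟 c * 𝔞) → c = c₀ := by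
  obtain ⟨h, x, hx⟩ := exists_transversal (nset K) (finite_nset K)
  have h1 : ∀ i : Fin h, ∃ 𝔟 : Ideal (𝓞 K), IsCoprime 𝔟 (Ideal.span {(n : 𝓞 K)}) ∧
      𝔟 ≠ ⊥ ∧ NP (𝔟 * (x i).1) := by
    intro i
    obtain ⟨𝔟, α, h2, h3, h4⟩ := ncls n hn (x i).1 (x i).2
    refine ⟨𝔟, h3, ?_, ⟨α, h2, h4⟩⟩
    rintro rfl
    rw [Ideal.bot_mul] at h4
    exact h2.1 (Ideal.span_singleton_eq_bot.1 h4.symm)
  choose 𝔟 hb1 hb2 hb3 using h1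
  refine ⟨h, 𝔟, hb1, hb2, fun 𝔞 h𝔞 => ?_⟩
  obtain ⟨i, hi1, hi2⟩ := hx ⟨𝔞, h𝔞⟩
  have hi1' : NEq (x i).1 𝔞 := hi1
  refine ⟨i, NP.of_NEq hi1' (hb3 i), fun j hj => hi2 j ?_⟩
  have h3 : NEq (x j).1 𝔞 := NEq.of_NP (hb2 j) (hb3 j) hj
  exact h3

end

end Vale.Agent.P022.H23
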