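import Vale.Agent.P022.H23.Nrm
import Vale.Agent.P022.H626.Unit
import Vale.Agent.P022.H472.Lit4

/-!
P022-R: totally positive elements of a real quadratic field `K` in terms of the two embeddings,
their generators up to powers of the fundamental totally positive unit, norm one in the letters
of `R.ContR`, elements of mixed signature near `1`
-/

set_option autoImplicit false
set_option linter.unusedSectionVars false

open NumberField Module Ideal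

namespace Vale.Agent.P022.H23

open Vale.Agent.P022.H724 Vale.Agent.P022.H626

variable {K : Type} [Field K] [NumberField K] {σ₁ σ₂ : K →+* ℝ}

/-- `σ₁`, `σ₂` are the only real embeddings -/
theorem emb_two (h2 : finrank ℚ K = 2) (hne : σ₁ ≠ σ₂) (σ : K →+* ℝ) : σ = σ₁ ∨ σ = σ₂ := by
  obtain ⟨B⟩ := exists_qb (K := K) h2
  obtain ⟨hs, hp⟩ := emb_pair B hne
  have h := emb_sq B σ
  have h1 := emb_sq B σ₁
  have h3 : (σ (B.ω : K) - σ₁ (B.ω : K)) * (σ (B.ω : K) - σ₂ (B.ω : K)) = 0 := by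
    have : (B.q : ℝ) = σ₁ (B.ω : K) + σ₂ (B.ω : K) := hs.symm
    rw [this] at h h1
    linear_combination (h - h1) / 4
  rcases mul_eq_zero.1 h3 with h4 | h4
  · exact Or.inl (emb_ext B _ _ (by linarith))
  · exact Or.inr (emb_ext B _ _ (by linarith))

theorem tp_iff (h2 : finrank ℚ K = 2) (hne : σ₁ ≠ σ₂) (α : 𝓞 K) :
    TP α ↔ 0 < σ₁ (α : K) ∧ 0 < σ₂ (α : K) := by
  constructor
  · intro h
    exact ⟨h.2 _, h.2 _⟩
  · intro h
    refine ⟨?_, fun σ => ?_⟩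
    · rintro rfl
      simpa using h.1
    · rcases emb_two h2 hne σ with rfl | rfl
      · exact h.1
      · exact h.2

theorem TP.norm (h2 : finrank ℚ K = 2) (hne : σ₁ ≠ σ₂) {α : 𝓞 K} (h : TP α) :
    (Ideal.absNorm (Ideal.span {α}) : ℝ) = σ₁ (α : K) * σ₂ (α : K) := by
  have h1 := emb_norm h2 hne α
  rw [Ideal.absNorm_span_singleton, h1]
  have h3 : (0 : ℝ) ≤ (Algebra.norm ℤ α : ℤ) := by
    rw [← h1]
    exact (mul_pos (h.2 σ₁) (h.2 σ₂)).le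
  have h4 : 0 ≤ Algebra.norm ℤ α := by exact_mod_cast h3
  have h5 : ((Algebra.norm ℤ α).natAbs : ℤ) = Algebra.norm ℤ α := Int.natAbs_of_nonneg h4
  rw [← Int.cast_natCast, h5]

/-- two totally positive generators differ by a power of the fundamental unit -/
theorem tp_gen {η : (𝓞 K)ˣ}
    (hη : ∀ u : (𝓞 K)ˣ, 0 < σ₁ ((u : 𝓞 K) : K) → 0 < σ₂ ((u : 𝓞 K) : K) → ∃ n : ℤ, u = η ^ n)
    {α β : 𝓞 K} (hα : TP α) (hβ : TP β) (h : Ideal.span {α} = Ideal.span {β}) :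
    ∃ n : ℤ, β = ((η ^ n : (𝓞 K)ˣ) : 𝓞 K) * α := by
  obtain ⟨u, hu⟩ := Ideal.span_singleton_eq_span_singleton.1 h
  have h1 : 0 < σ₁ ((u : 𝓞 K) : K) := by
    have h3 := hβ.2 σ₁
    rw [← hu] at h3
    push_cast at h3
    rw [map_mul] at h3
    exact (pos_iff_pos_of_mul_pos h3).1 (hα.2 σ₁)
  have h1' : 0 < σ₂ ((u : 𝓞 K) : K) := by
    have h3 := hβ.2 σ₂
    rw [← hu] at h3
    push_cast at h3
    rw [map_mul] at h3
    exact (pos_iff_pos_of_mul_pos h3).1 (hα.2 σ₂)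
  obtain ⟨n, rfl⟩ := hη u h1 h1'
  exact ⟨n, by rw [← hu, mul_comm]⟩

variable {E : Type} [NontriviallyNormedField E] [IsUltrametricDist E]

/-- norm one in the letters of `R.ContR` -/
theorem nrmR {m : ℕ} (hm : m ≠ 0) (ψ : Ideal (𝓞 K) →* E) (h : R.ContR σ₁ m ψ)
    {𝔞 : Ideal (𝓞 K)} (hc : IsCoprime 𝔞 (Ideal.span {((2 * m : ℕ) : 𝓞 K)})) :
    ‖ψ 𝔞‖ = 1 := by
  refine rnrm hm ψ (fun ε hε => ?_) hc
  obtain ⟨M, hM⟩ := h ε hε
  refine ⟨M, fun α hα h1 => ?_⟩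
  have h3 := hM α h1
  rwa [if_pos (hα.2 σ₁)] at h3

/-- elements `≡ 1 mod n` with prescribed signs `+, -` -/
theorem exists_mixed (h2 : finrank ℚ K = 2) (hne : σ₁ ≠ σ₂) {n : ℕ} (hn : n ≠ 0) :
    ∃ β : 𝓞 K, (n : 𝓞 K) ∣ β - 1 ∧ 0 < σ₁ (β : K) ∧ σ₂ (β : K) < 0 := by
  obtain ⟨B⟩ := exists_qb (K := K) h2
  obtain ⟨hs, hp⟩ := emb_pair B hne
  have hd1 : σ₁ (B.δ : K) = σ₁ (B.ω : K) - σ₂ (B.ω : K) := by
    unfold QB.δ
    push_cast
    simp only [map_sub, map_mul, map_ofNat, map_intCast]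
    linarith
  have hd2 : σ₂ (B.δ : K) = -(σ₁ (B.ω : K) - σ₂ (B.ω : K)) := by
    unfold QB.δ
    push_cast
    simp only [map_sub, map_mul, map_ofNat, map_intCast]
    linarith
  have hd0 : σ₁ (B.ω : K) - σ₂ (B.ω : K) ≠ 0 := by
    intro h
    exact hne (emb_ext B _ _ (by linarith))
  obtain ⟨δ, c, hc, hδ1, hδ2⟩ : ∃ (δ : 𝓞 K) (c : ℝ), 0 < c ∧ σ₁ (δ : K) = c ∧ σ₂ (δ : K) = -c := by
    rcases lt_or_gt_of_ne hd0 with h | h
    · refine ⟨-B.δ, _, neg_pos.2 h, ?_, ?_⟩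
      · push_cast
        rw [map_neg, hd1]
      · push_cast
        rw [map_neg, hd2]
    · exact ⟨B.δ, _, h, hd1, hd2⟩
  obtain ⟨M, hM⟩ := exists_nat_gt (1 / c)
  have hM' : 1 < M * c := by rwa [div_lt_iff₀ hc] at hM
  have hn1 : (1 : ℝ) ≤ n := by exact_mod_cast Nat.one_le_iff_ne_zero.2 hn
  have hM2 : 1 < n * (M * c) := by nlinarith
  refine ⟨1 + n * (M * δ), ⟨M * δ, by ring⟩, ?_, ?_⟩
  · push_cast
    simp only [map_add, map_mul, map_natCast, map_one, hδ1]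
    linarith
  · push_cast
    simp only [map_add, map_mul, map_natCast, map_one, hδ2]
    linarith

/-- a totally positive unit `ε₀ ≡ 1 mod n`, `σ₁ ε₀ > 1` -/
theorem exists_unit_one_mod (h2 : finrank ℚ K = 2) (hne : σ₁ ≠ σ₂) {n : ℕ} (hn : n ≠ 0) :
    ∃ ε₀ : (𝓞 K)ˣ, (n : 𝓞 K) ∣ (ε₀ : 𝓞 K) - 1 ∧ 1 < σ₁ ((ε₀ : 𝓞 K) : K) ∧
      σ₂ ((ε₀ : 𝓞 K) : K) = (σ₁ ((ε₀ : 𝓞 K) : K))⁻¹ := by
  obtain ⟨u, hu1, hu2⟩ := exists_unit h2 hne
  have hc : IsCoprime (u : 𝓞 K) (n : 𝓞 K) := ⟨((u⁻¹ : (𝓞 K)ˣ) : 𝓞 K), 0, by simp⟩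
  obtain ⟨k, hk, h3⟩ := exists_pow_modEq hn hc
  have h4 : ∀ σ : K →+* ℝ, σ (((u ^ k : (𝓞 K)ˣ) : 𝓞 K) : K) = σ ((u : 𝓞 K) : K) ^ k := by
    intro σ
    push_cast
    rw [map_pow]
  refine ⟨u ^ k, ?_, ?_, ?_⟩
  · rw [Units.val_pow_eq_pow_val]; exact h3
  · rw [h4]
    exact one_lt_pow₀ hu1 hk.ne'
  · rw [h4, h4, ← inv_pow]
    congr 1
    exact eq_inv_of_mul_eq_one_right hu2

end Vale.Agent.P022.H23
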